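import Vale.Agent.P116.Ms.RV

/-!
# P116 / Cl : the family of all limit trees is nice, weaker hypothesis of existence (helper339)

`RV1w` : as `RV1` of `Ms/SpecR.lean`, but instead of one tree which is coherent at all levels only
`(E t δ Q).Nonempty` for all `t`, `δ > 0`, `Q` is assumed.
-/

open Set Filter Topology Metric UniformSpace
open scoped Classical

namespace Vale.Agent.P116.Cl

open Slow Slow.Sys Ms

/-- RV1 with the weaker existence hypothesis -/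
def RV1w : Prop := ∀ {T : Type} {S : T → Type} [∀ Q, PseudoMetricSpace (S Q)] (s : Sys T S)
    {Par : Type} [Preorder Par] [IsDirected Par (· ≤ ·)] [Nonempty Par]
    (E : Par → ℝ → ∀ Q, Set (S Q)) (_ : ∀ Q, TotallyBounded (univ : Set (S Q)))
    {β : Type} {br : β → ℕ → T} (_ : ∀ x, s.Br (br x))
    (_ : ∀ t t', t ≤ t' → ∀ δ Q, E t' δ Q ⊆ E t δ Q)
    (_ : ∀ t δ δ', δ ≤ δ' → ∀ Q, E t δ Q ⊆ E t δ' Q)
    (_ : ∀ t, ∀ δ > 0, ∀ Q, (E t δ Q).Nonempty)
    (_ : ∀ t Q (a : ∀ Q, S Q) (d : T → ℝ), (∀ R ∈ s.ch Q, 0 ≤ d R) →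
      (∀ R ∈ s.ch Q, a R ∈ E t (d R) R) → s.join Q a ∈ E t (∑ R ∈ s.ch Q, d R) Q)
    (_ : ∀ t x, ∀ δ > 0, ∃ m₀, ∀ m ≥ m₀, s.o (br x m) ∈ E t δ (br x m)),
    s.cmp.NiceU (range br) (s.VV E)

/-- **RV1w** -/
theorem rv1w : RV1w := by
  intro T S _ s Par _ _ _ E hTB β br hbr hanti hmono hbase hE1 ho
  have hcpt : ∀ Q, CompactSpace (Completion (S Q)) := compact_cmp hTB
  have hanti' : ∀ t t', t ≤ t' → ∀ Q, E0 E t' Q ⊆ E0 E t Q := fun t t' h Q x hx δ hδ =>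
    closure_mono (image_mono (hanti t t' h δ Q)) (hx δ hδ)
  have hclE0 : ∀ t Q, IsClosed (E0 E t Q) := by
    intro t Q
    have : E0 E t Q = ⋂ δ : Ioi (0 : ℝ), EB E t δ Q := by
      ext x
      simp [E0]
    rw [this]
    exact isClosed_iInter fun δ => isClosed_closure
  have hcohc : IsClosed {ξ : ∀ Q, Completion (S Q) | s.cmp.Coh ξ} := by
    have : {ξ : ∀ Q, Completion (S Q) | s.cmp.Coh ξ} =
        ⋂ Q, {ξ | ξ Q = s.cmp.join Q ξ} := by
      ext ξ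
      simp [Coh]
    rw [this]
    exact isClosed_iInter fun Q => isClosed_eq (continuous_apply Q) (s.cmp.continuous_join Q)
  have hbr' : ∀ x, s.cmp.Br (br x) := hbr
  refine ⟨?_, ?_, fun ξ hξ => hξ.1, ?_, ?_⟩
  · have h1 : s.VV E = {ξ | s.cmp.Coh ξ} ∩ ⋂ t, ⋂ Q, {ξ | ξ Q ∈ E0 E t Q} := by
      ext ξ
      rw [mem_VV]
      simp
    rw [h1]
    exact hcohc.inter (isClosed_iInter fun t => isClosed_iInter fun Q =>
      (hclE0 t Q).preimage (continuous_apply Q))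
  · -- nonempty
    have hdir1 : IsDirected (Par × ℕ) (· ≤ ·) := directed_prod
    have hex : ∀ i : Par × ℕ, ∃ a : ∀ Q, S Q, ∀ Q, s.Rc i.2 a Q ∈ E i.1 (1 / ((i.2 : ℝ) + 1)) Q := by
      rintro ⟨t, n⟩
      obtain ⟨c, hc, hc'⟩ := s.exists_budget hmono hE1 n (δ := 1 / ((n : ℝ) + 1)) (by positivity)
      choose a ha using fun Q => hbase t c hc Q
      exact ⟨a, hc' t a ha⟩
    choose a ha using hex
    obtain ⟨ξ, -, hξ⟩ := (isCompact_univ (X := ∀ Q, Completion (S Q))).ultrafilter_le_nhds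
      ((Ultrafilter.of (atTop : Filter (Par × ℕ))).map fun i => cc (s.Rc i.2 (a i))) (by simp)
    have hξQ : ∀ Q, Tendsto (fun i : Par × ℕ => cc (s.Rc i.2 (a i)) Q)
        (Ultrafilter.of (atTop : Filter (Par × ℕ)) : Filter (Par × ℕ)) (𝓝 (ξ Q)) :=
      fun Q => ((continuous_apply Q).tendsto ξ).comp hξ
    obtain ⟨t₀⟩ := (inferInstance : Nonempty Par)
    refine ⟨ξ, mem_VV.2 ⟨fun Q => ?_, fun t Q δ hδ => ?_⟩⟩
    · have h1 : Tendsto (fun i : Par × ℕ => s.cmp.join Q (cc (s.Rc i.2 (a i))))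
          (Ultrafilter.of (atTop : Filter (Par × ℕ)) : Filter (Par × ℕ)) (𝓝 (s.cmp.join Q ξ)) :=
        ((s.cmp.continuous_join Q).tendsto ξ).comp hξ
      refine tendsto_nhds_unique (hξQ Q) (h1.congr' ?_)
      refine (Ultrafilter.of_le _) ?_
      filter_upwards [eventually_ge_atTop ((t₀, s.lv Q + 1) : Par × ℕ)] with i hi
      have hi2 : s.lv Q < i.2 := hi.2
      rw [s.cmp_join_cc, ← s.Rc_lt (a i) hi2]
      rfl
    · obtain ⟨n, hn⟩ := exists_nat_one_div_lt hδ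
      refine isClosed_closure.mem_of_tendsto (hξQ Q) ?_
      refine (Ultrafilter.of_le _) ?_
      filter_upwards [eventually_ge_atTop ((t, n) : Par × ℕ)] with i hi
      refine subset_closure ⟨_, hanti t i.1 hi.1 δ Q (hmono i.1 _ _ ?_ Q (ha i Q)), rfl⟩
      refine le_trans ?_ hn.le
      apply one_div_le_one_div_of_le (by positivity)
      have h3 : n ≤ i.2 := hi.2
      have : (n : ℝ) ≤ i.2 := by exact_mod_cast h3
      linarith
  · intro Q η hη ξ hξ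
    rw [mem_VV] at hη hξ ⊢
    refine ⟨s.cmp.sp_coh hη.1 hξ.1, fun t => ?_⟩
    have h1 : ∀ d Q', s.cmp.lv Q - s.cmp.lv Q' = d → s.cmp.sp Q η ξ Q' ∈ E0 E t Q' := by
      intro d
      induction d with
      | zero =>
        intro Q' hd
        have hl : s.cmp.lv Q ≤ s.cmp.lv Q' := by omega
        by_cases h : s.cmp.Bel Q Q'
        · rw [s.cmp.sp_bel _ _ h]
          exact hη.2 t Q'
        · rw [s.cmp.sp_ge _ _ hl h]
          exact hξ.2 t Q'
      | succ d ih =>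
        intro Q' hd
        rw [s.cmp.sp_coh hη.1 hξ.1 Q']
        refine s.join_E0 hmono hE1 t Q' fun R hR => ih R ?_
        have h3 : s.cmp.lv R = s.cmp.lv Q' + 1 := s.cmp.lv_ch _ _ hR
        omega
    exact fun Q' => h1 _ Q' rfl
  · rintro b ⟨x, rfl⟩ 𝒰 h𝒰 ξ hξ η hη
    rw [mem_VV] at hξ ⊢
    refine ⟨lim_coh h𝒰 hη, fun t Q δ hδ => ?_⟩
    obtain ⟨m₀, hm₀⟩ := ho t x (δ / 2) (by positivity)
    refine isClosed_closure.mem_of_tendsto (hη Q) ?_
    filter_upwards [h𝒰 (eventually_ge_atTop m₀), h𝒰 (eventually_ge_atTop (s.lv Q))] with m h3 h4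
    by_cases hQ : s.cmp.Bel Q (br x m)
    · have h5 := (hbr' x).eq_of_bel hQ
      have h6 := s.mg_EB hmono hE1 (hbr x) (by positivity : (0:ℝ) ≤ δ / 2) (hm₀ m h3) hξ.1
        (fun Q => hξ.2 t Q) (m - s.lv Q) (s.lv Q) (by omega) δ (by linarith)
      have h7 : Q = br x (s.lv Q) := h5
      rw [← h7] at h6
      exact h6
    · rw [s.cmp.mg_off hξ.1 hQ]
      exact hξ.2 t Q δ hδ

end Vale.Agent.P116.Cl
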